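import Vale.Agent.P277W.Rows
import Vale.Agent.P277Z.St.Prime
import Vale.Agent.P277Z.St.Iso
import Vale.Agent.P277.H762.CL1

/-!
# P277W, row LOCP: a piece of an analytic hypersurface is a piece of a prime divisor
-/

open scoped Topology
open Vale.Agent.P277 hiding Amin IsFlipR
open Vale.Agent.P272.K Vale.Agent.P285.H281.FD Vale.Agent.P277Z Vale.Agent.P277Z.St Set Filter
open Vale.Agent.P277Z.St.Pr Vale.Agent.P277Z.Val Vale.Agent.P277W

noncomputable section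

namespace Vale.Agent.P277W13

variable {X : CSp} {g : Cm 4 → X.pt} {z : Cm 4} {ζ ζ' : Cm 4 → ℂ}

theorem eqn_ev (h : Eqn ζ z) : ∀ᶠ w in 𝓝 z, ζ w = 0 → Eqn ζ w := by
  filter_upwards [h.1.eventually_analyticAt, h.1.fderiv.continuousAt.eventually_ne h.2.2]
    with w a b c using ⟨a, c, b⟩

/-- two smooth hypersurfaces, one inside the other, agree -/
theorem eqn_iff (h : Eqn ζ z) (h' : Eqn ζ' z) (hs : ∀ᶠ w in 𝓝 z, ζ w = 0 → ζ' w = 0) :
    ∀ᶠ w in 𝓝 z, (ζ' w = 0 ↔ ζ w = 0) := by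
  obtain ⟨u, h1, h2, h3⟩ := H762.exists_div_unit (n := 3) (V := Cm 4) (by simp) h.1 h.2.2 h.2.1
    h'.1 h'.2.2 hs
  filter_upwards [h3, h1.continuousAt.eventually_ne h2] with w a b
  rw [a, mul_eq_zero, or_iff_left b]

/-- a smooth hypersurface in any chart -/
theorem hyp_chart {Q : Set X.pt} (h : IsCh X g z) (hQ : HypAt X Q (g z)) :
    ∃ ζ, Eqn ζ z ∧ ∀ᶠ w in 𝓝 z, (g w ∈ Q ↔ ζ w = 0) := by
  obtain ⟨g', z', ζ, h', e, k1, k2⟩ := hQ
  obtain ⟨τ, a1, a2, a3⟩ := h'.trans h e.symm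
  obtain ⟨σ, b1, b2, b3⟩ := h.trans h' e
  obtain ⟨-, V, Ω, k, φ, -, -, h3⟩ := h'
  have t1 : Tendsto τ (𝓝 z) (𝓝 z') := a2 ▸ a1.continuousAt.tendsto
  have t2 : Tendsto σ (𝓝 z') (𝓝 z) := b2 ▸ b1.continuousAt.tendsto
  have an : AnalyticAt ℂ (fun w => ζ (τ w)) z := k1.1.comp_of_eq a1 a2
  refine ⟨fun w => ζ (τ w), ⟨an, (congrArg ζ a2).trans k1.2.1, fun h0 => k1.2.2 ?_⟩, ?_⟩
  · have e1 : ζ =ᶠ[𝓝 z'] (fun w => ζ (τ w)) ∘ σ := by
      filter_upwards [h3, (t1.comp t2).eventually h3, t2.eventually a3, b3] with w c1 c2 c3 c4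
      exact congrArg ζ (c1.symm.trans ((congrArg φ (c4.trans c3)).trans c2))
    rw [e1.fderiv_eq, fderiv_comp z' (b2.symm ▸ an.differentiableAt) b1.differentiableAt, b2, h0,
      ContinuousLinearMap.zero_comp]
  · filter_upwards [a3, t1.eventually k2] with w c1 c2
    rw [c1, c2]

theorem locp_of (h0 : GH.StRes0) (h1 : GH.StPrin) (h2 : GH.StComp) (h3 : GH.StFam)
    (h4 : Pj.RAP) (h5 : Pj.PRJS) (h6 : Pj.REMG) (hy : HYP) : LOCP := by
  intro W T g z ζ hW hT hd hg hζ hs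
  have := hW.sing.nonempty
  obtain ⟨V, p, exc, hr, hE⟩ := logres_of h0 h1 h2 h3 W hW T hT hd
  have ha := img_of h5 h6 V W p (res_hol hr) (res_prj h4 hr)
  let ι := {Q : Set W.pt // Q ∈ range (fun l => p '' V.G l) ∧ IsPrime W Q}
  have : Finite ι := ((finite_range _).subset fun Q (hQ : _ ∧ IsPrime W Q) => hQ.1).to_subtype
  obtain ⟨S, hS⟩ := prime_of h0 h1 h2 h3 h4 h5 h6 W ι Subtype.val hW (fun t => t.2.2)
    Subtype.val_injective
  let B : Set W.pt := ⋃ l : {l // DimLe W 2 (p '' V.G l)}, p '' V.G l.1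
  have hB : IsClosed B := isClosed_iUnion_of_finite fun l => isClosed_of_isAn (ha _)
  have cov : ∀ x ∈ T, x ∉ B → ∃ t : ι, x ∈ t.1 := by
    intro x hx hb
    obtain ⟨y, rfl⟩ := hr.surj x
    obtain ⟨l, hl⟩ := mem_iUnion.1 (hE y hx)
    exact ⟨⟨_, ⟨l, rfl⟩, ha l, fun A B => irr_img (res_hol hr) l, dim_img (res_hol hr) (thin_G V l),
      fun e => hb (mem_iUnion.2 ⟨⟨l, e⟩, y, hl, rfl⟩)⟩, y, hl, rfl⟩
  have key : ∃ᶠ z' in 𝓝 z, ∃ t : ι, ζ z' = 0 ∧ ∀ᶠ w in 𝓝 z', (g w ∈ t.1 ↔ ζ w = 0) := by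
    refine ((hy W g z ζ _ hg hζ (hS.dim.union (dimLe_iUnion fun l => l.2 : DimLe W 2 B))).and_eventually
      (hg.eventually.and ((eqn_ev hζ).and hs.eventually_nhds))).mono ?_
    rintro z' ⟨⟨a1, a2⟩, a3, a4, a5⟩
    obtain ⟨t, ht⟩ := cov _ (a5.self_of_nhds a1) fun e => a2 (.inr e)
    obtain ⟨b1, b2⟩ := hS.hyp t _ ht fun e => a2 (.inl e)
    obtain ⟨ζ', c1, c2⟩ := hyp_chart a3 b1
    have c3 : ∀ᶠ w in 𝓝 z', ∀ t' : ι, t' ≠ t → g w ∉ t'.1 := eventually_all.2 fun t' => by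
      by_cases e : t' = t
      · exact .of_forall fun _ k => (k e).elim
      · exact (a3.1.1.eventually_mem ((isClosed_of_isAn (hS.an t')).isOpen_compl.mem_nhds
          (b2 t' e))).mono fun _ k _ => k
    have c4 : ∀ᶠ w in 𝓝 z', ζ w = 0 → ζ' w = 0 := by
      filter_upwards [a5, c2, c3, a3.1.1.eventually_mem
        (hB.isOpen_compl.mem_nhds fun e => a2 (.inr e))] with w d1 d2 d3 d4 d5
      obtain ⟨t', ht'⟩ := cov _ (d1 d5) d4
      obtain rfl : t' = t := by_contra fun e => d3 t' e ht'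
      exact d2.1 ht'
    refine ⟨t, a1, ?_⟩
    filter_upwards [c2, eqn_iff (a4 a1) c1 c4] with w d1 d2 using d1.trans d2
  by_contra hc
  refine key ((eventually_all.2 fun t : ι => not_frequently.1 fun e => hc ⟨t.1, t.2.2, e⟩).mono ?_)
  rintro z' d ⟨t, e⟩
  exact d t e

end Vale.Agent.P277W13
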