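import Vale.Agent.P277W13.Locp
import Vale.Agent.P277W66.Loc
import Vale.Agent.P277Z.Fin.Red

/-!
# P277W, row LOCP with the kit plugged in
-/

namespace Vale.Agent.P277W13

open Vale.Agent.P277Z Vale.Agent.P277W

theorem locp : LOCP :=
  locp_of Glc.ghRes0 Glc.ghPrin Glc.ghComp GH.fam Pj.rap Pj.prjs (Pj.F.remg C1.fts) hyp

end Vale.Agent.P277W13
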